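import Vale.Agent.P283R.He.Doi
import Mathlib.RingTheory.Filtration
import Mathlib.Analysis.Convex.Caratheodory

/-!
# P283R: two small lemmas on lattices and cones
-/

namespace Vale.Agent.P283R.He

open Finset

/-- a vector which lies in `M + k ℤ^N` for all `k` lies in `M` -/
theorem inter {ι : Type} [Finite ι] (M : AddSubgroup (ι → ℤ)) (x : ι → ℤ)
    (h : ∀ k : ℤ, k ≠ 0 → ∃ y : ι → ℤ, x - k • y ∈ M) : x ∈ M := by
  let S : Submodule ℤ (ι → ℤ) := AddSubgroup.toIntSubmodule M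
  have key : ∀ a : ℤ, a ≠ 0 → ∃ c : ℤ, (c * a) • S.mkQ x = S.mkQ x := fun a ha => by
    have h1 : S.mkQ x ∈ (⨅ i : ℕ, (Ideal.span {a}) ^ i • (⊤ : Submodule ℤ ((ι → ℤ) ⧸ S)) :
        Submodule ℤ ((ι → ℤ) ⧸ S)) := by
      refine (Submodule.mem_iInf _).2 fun i => ?_
      obtain ⟨y, hy⟩ := h (a ^ i) (pow_ne_zero _ ha)
      have h2 : S.mkQ x = a ^ i • S.mkQ y := by
        rw [← map_smul]
        exact (Submodule.Quotient.eq S).2 hy
      rw [h2]
      exact Submodule.smul_mem_smul (Ideal.pow_mem_pow (Ideal.mem_span_singleton_self a) i)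
        Submodule.mem_top
    obtain ⟨r, hr⟩ := ((Ideal.span {a}).mem_iInf_smul_pow_eq_bot_iff _).1 h1
    obtain ⟨c, hc⟩ := Ideal.mem_span_singleton'.1 r.2
    exact ⟨c, hc ▸ hr⟩
  obtain ⟨c, hc⟩ := key 2 two_ne_zero
  obtain ⟨c', hc'⟩ := key (c * 2 - 1) (by omega)
  rw [mul_smul, sub_smul, hc, one_smul, sub_self, smul_zero] at hc'
  exact (Submodule.Quotient.mk_eq_zero S).1 hc'.symm

/-- Caratheodory for cones -/
theorem cara {ι : Type} [Fintype ι] [DecidableEq ι] {d : ℕ} (ρ : ι → Fin d → ℝ) (w : ι → ℝ)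
    (hw : ∀ l, 0 ≤ w l) : ∃ (t : Finset ι) (v : ι → ℝ), t.card ≤ d ∧ (∀ l, 0 ≤ v l) ∧
      (∀ l, l ∉ t → v l = 0) ∧ (∀ l, w l = 0 → v l = 0) ∧
      ∀ k, ∑ l, v l * ρ l k = ∑ l, w l * ρ l k := by
  suffices H : ∀ (n : ℕ) (t : Finset ι) (w : ι → ℝ), t.card = n → (∀ l, 0 ≤ w l) →
      (∀ l, l ∉ t → w l = 0) → ∃ (t : Finset ι) (v : ι → ℝ), t.card ≤ d ∧ (∀ l, 0 ≤ v l) ∧
      (∀ l, l ∉ t → v l = 0) ∧ (∀ l, w l = 0 → v l = 0) ∧
      ∀ k, ∑ l, v l * ρ l k = ∑ l, w l * ρ l k from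
    H _ univ w rfl hw fun l h => absurd (mem_univ l) h
  intro n
  induction n with
  | zero => exact fun t w ht hw h0 => ⟨t, w, by omega, hw, h0, fun _ h => h, fun _ => rfl⟩
  | succ n ih =>
    intro t w ht hw h0
    by_cases hd : t.card ≤ d
    · exact ⟨t, w, hd, hw, h0, fun _ h => h, fun _ => rfl⟩
    by_cases hz : ∃ l ∈ t, w l = 0
    · obtain ⟨l, hl, hl0⟩ := hz
      exact ih (t.erase l) w (by rw [card_erase_of_mem hl]; omega) hw fun i hi => by
        by_cases h : i = l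
        · rw [h, hl0]
        · exact h0 i fun h' => hi (mem_erase.2 ⟨h, h'⟩)
    push Not at hz
    have hdep : ¬ LinearIndependent ℝ fun l : t => ρ l := fun h => by
      have := h.fintype_card_le_finrank
      simp only [Fintype.card_coe, Module.finrank_fin_fun] at this
      exact hd this
    obtain ⟨g, hg, l₀, hl₀⟩ : ∃ g : t → ℝ, ∑ l, g l • ρ l = 0 ∧ ∃ l, 0 < g l := by
      obtain ⟨g, hg, l, hl⟩ := Fintype.not_linearIndependent_iff.1 hdep
      rcases lt_or_gt_of_ne hl with h | h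
      · exact ⟨-g, by simp only [Pi.neg_apply, neg_smul, sum_neg_distrib, hg, neg_zero], l,
          by simpa using h⟩
      · exact ⟨g, hg, l, h⟩
    obtain ⟨l₁, h1, h2⟩ := (univ.filter fun l : t => 0 < g l).exists_min_image
      (fun l => w l / g l) ⟨l₀, by simpa using hl₀⟩
    have hg1 : 0 < g l₁ := by simpa using h1
    set θ := w l₁ / g l₁ with hθ
    have hθ0 : 0 ≤ θ := div_nonneg (hw _) hg1.le
    let G : ι → ℝ := fun l => if h : l ∈ t then g ⟨l, h⟩ else 0
    have hG : ∀ k, ∑ l, G l * ρ l k = 0 := fun k => by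
      have h3 := congrFun hg k
      simp only [Finset.sum_apply, Pi.smul_apply, smul_eq_mul, Pi.zero_apply] at h3
      rw [← h3, ← sum_subset (subset_univ t) fun l _ hl => by simp [G, hl], ← sum_coe_sort]
      exact sum_congr rfl fun l _ => by simp [G]
    obtain ⟨t', v, a1, a2, a3, a4, a5⟩ := ih (t.erase l₁) (fun l => w l - θ * G l)
      (by rw [card_erase_of_mem l₁.2]; omega) (fun l => by
        by_cases h : l ∈ t
        · simp only [G, dif_pos h]
          by_cases h' : 0 < g ⟨l, h⟩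
          · have := (le_div_iff₀ h').1 (h2 ⟨l, h⟩ (by simpa using h'))
            linarith
          · have := mul_nonneg hθ0 (neg_nonneg.2 (not_lt.1 h'))
            linarith [hw l]
        · simp [G, h, hw l]) fun l hl => by
        by_cases h : l ∈ t
        · have h3 : l = l₁ := by
            by_contra h3
            exact hl (mem_erase.2 ⟨h3, h⟩)
          subst h3
          simp only [G, dif_pos l₁.2, hθ, Subtype.coe_eta]
          field_simp
          ring
        · simp [G, h, h0 l h]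
    refine ⟨t', v, a1, a2, a3, fun l hl => a4 l ?_, fun k => ?_⟩
    · have h : l ∉ t := fun h => hz l h hl
      simp [G, h, hl]
    · simp only [a5, sub_mul, sum_sub_distrib, mul_assoc, ← mul_sum, hG, mul_zero, sub_zero]

end Vale.Agent.P283R.He
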