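import Mathlib

/-! Integer Helly theorem (Doignon, Bell, Scarf) for half spaces. -/

namespace Vale.Agent.P283R.He

open Finset

theorem doignon_aux {d : ℕ} {ι : Type*} [DecidableEq ι] (s : Finset ι)
    (l : ι → (Fin d → ℤ) →+ ℝ) (C : ι → Set ℝ) (hC : ∀ i, IsUpperSet (C i))
    (hs : 2 ^ d < s.card) (x : ι → Fin d → ℤ)
    (hx : ∀ i ∈ s, ∀ j ∈ s, j ≠ i → l j (x i) ∈ C j) : ∃ m, ∀ i ∈ s, l i m ∈ C i := by
  classical
  by_contra hno
  push Not at hno
  obtain ⟨B, hB⟩ : ∃ B : ℤ, ∀ i ∈ s, ∀ k, -B ≤ x i k ∧ x i k ≤ B := by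
    refine ⟨∑ i ∈ s, ∑ k, |x i k|, fun i hi k => abs_le.1 ?_⟩
    calc |x i k| ≤ ∑ k, |x i k| :=
          single_le_sum (f := fun k => |x i k|) (fun _ _ => abs_nonneg _) (mem_univ k)
      _ ≤ _ := single_le_sum (f := fun i => ∑ k, |x i k|)
          (fun _ _ => sum_nonneg fun _ _ => abs_nonneg _) hi
  set F : Finset (Fin d → ℤ) := Fintype.piFinset fun _ => Finset.Icc (-B) B with hF
  have hxF : ∀ i ∈ s, x i ∈ F := fun i hi => by
    simp only [hF, Fintype.mem_piFinset, mem_Icc]; exact hB i hi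
  have hviol : ∀ i ∈ s, l i (x i) ∉ C i := by
    intro i hi hc
    obtain ⟨j, hj, hj'⟩ := hno (x i)
    by_cases h : j = i
    · subst h; exact hj' hc
    · exact hj' (hx i hi j hj h)
  -- admissible tuples of points of F
  let Adm : (s → F) → Prop := fun u =>
    (∀ i : s, ∀ y ∈ F, l i y ∈ C i → l i (u i) < l i y) ∧
      ∀ y ∈ F, ∃ i : s, l i y ≤ l i (u i)
  have hne : ∃ u, Adm u := by
    have h1 : ∀ i : s, ∃ y : F, l i y ∉ C i ∧ ∀ y' ∈ F, l i y' ∉ C i → l i y' ≤ l i y := by
      intro i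
      obtain ⟨y, hy, hy'⟩ := exists_max_image (F.filter fun y => l i y ∉ C i) (fun y => l i y)
        ⟨x i, mem_filter.2 ⟨hxF i i.2, hviol i i.2⟩⟩
      exact ⟨⟨y, (mem_filter.1 hy).1⟩, (mem_filter.1 hy).2,
        fun y' h h' => hy' y' (mem_filter.2 ⟨h, h'⟩)⟩
    choose u hu hu' using h1
    refine ⟨u, fun i y _ hy => ?_, fun y hy => ?_⟩
    · by_contra hlt
      exact hu i (hC i (not_lt.1 hlt) hy)
    · obtain ⟨j, hj, hj'⟩ := hno y
      exact ⟨⟨j, hj⟩, hu' ⟨j, hj⟩ y hy hj'⟩
  obtain ⟨u, hu, hmin⟩ := exists_min_image (univ.filter Adm)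
    (fun u => ∑ i : s, l i (u i)) (by
      obtain ⟨u, hu⟩ := hne; exact ⟨u, mem_filter.2 ⟨mem_univ _, hu⟩⟩)
  have hu : Adm u := (mem_filter.1 hu).2
  have key : ∀ i : s, ∃ y ∈ F, l i y = l i (u i) ∧ ∀ j : s, j ≠ i → l j (u j) < l j y := by
    intro i
    obtain ⟨y, hy, hy'⟩ := exists_max_image
      (F.filter fun y => ∀ j : s, j ≠ i → l j (u j) < l j y) (fun y => l i y)
      ⟨x i, mem_filter.2 ⟨hxF i i.2, fun j hj =>
        hu.1 j _ (hxF i i.2) (hx i i.2 j j.2 fun h => hj (Subtype.ext h))⟩⟩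
    obtain ⟨hyF, hy2⟩ := mem_filter.1 hy
    have hle : l i y ≤ l i (u i) := by
      obtain ⟨j, hj⟩ := hu.2 y hyF
      by_cases h : j = i
      · subst h; exact hj
      · exact absurd (hy2 j h) (not_lt.2 hj)
    refine ⟨y, hyF, le_antisymm hle ?_, hy2⟩
    have hadm : Adm (Function.update u i ⟨y, hyF⟩) := by
      refine ⟨fun j z hz hz' => ?_, fun z hz => ?_⟩
      · by_cases h : j = i
        · subst h
          rw [Function.update_self]
          exact lt_of_le_of_lt hle (hu.1 j z hz hz')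
        · rw [Function.update_of_ne h]; exact hu.1 j z hz hz'
      · by_contra hcon
        push Not at hcon
        have h1 := hy' z (mem_filter.2 ⟨hz, fun j hj => by
          have := hcon j; rwa [Function.update_of_ne hj] at this⟩)
        have h2 := hcon i
        rw [Function.update_self] at h2
        exact absurd h1 (not_le.2 h2)
    have h3 := hmin _ (mem_filter.2 ⟨mem_univ _, hadm⟩)
    rw [← add_sum_erase _ _ (mem_univ i), ← add_sum_erase _ _ (mem_univ i),
      Function.update_self] at h3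
    have h4 : ∑ j ∈ univ.erase i, l j (Function.update u i ⟨y, hyF⟩ j : F) =
        ∑ j ∈ univ.erase i, l j (u j) :=
      sum_congr rfl fun j hj => by rw [Function.update_of_ne (ne_of_mem_erase hj)]
    rw [h4] at h3
    linarith
  choose y hyF hy1 hy2 using key
  obtain ⟨a, b, hab, hpar⟩ := Fintype.exists_ne_map_eq_of_card_lt
    (fun i : s => fun k : Fin d => ((y i k : ℤ) : ZMod 2)) (by simpa using hs)
  have hev : ∀ k, ∃ z : ℤ, y a k + y b k = z + z := by
    intro k
    have h := congrFun hpar k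
    have h2 : ((y a k + y b k : ℤ) : ZMod 2) = 0 := by
      push_cast
      rw [h]
      generalize ((y b k : ℤ) : ZMod 2) = t
      revert t; decide
    obtain ⟨c, hc⟩ := (ZMod.intCast_zmod_eq_zero_iff_dvd _ 2).1 h2
    exact ⟨c, by rw [hc]; push_cast; ring⟩
  choose z hz using hev
  have hzF : z ∈ F := by
    have ha := hyF a
    have hb := hyF b
    simp only [hF, Fintype.mem_piFinset, mem_Icc] at ha hb ⊢
    intro k
    have := hz k; have := ha k; have := hb k
    omega
  have hl : ∀ j, l j (y a) + l j (y b) = l j z + l j z := fun j => by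
    rw [← map_add, ← map_add]; congr 1; funext k; exact hz k
  obtain ⟨j, hj⟩ := hu.2 z hzF
  have h5 := hl j
  by_cases h1 : j = a
  · subst h1
    have := hy1 j; have := hy2 b j hab; linarith
  · by_cases h2 : j = b
    · subst h2
      have := hy1 j; have := hy2 a j h1; linarith
    · have := hy2 a j h1; have := hy2 b j h2; linarith

/-- Doignon's theorem: finitely many (open or closed) half spaces have a common point of `ℤ^d`
as soon as any `2^d` of them have one. -/
theorem doignon {d : ℕ} {ι : Type*} (s : Finset ι)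
    (l : ι → (Fin d → ℤ) →+ ℝ) (C : ι → Set ℝ) (hC : ∀ i, IsUpperSet (C i))
    (h : ∀ t ⊆ s, t.card ≤ 2 ^ d → ∃ m, ∀ i ∈ t, l i m ∈ C i) :
    ∃ m, ∀ i ∈ s, l i m ∈ C i := by
  classical
  induction s using Finset.strongInduction with
  | H s ih =>
    by_cases hs : s.card ≤ 2 ^ d
    · exact h s subset_rfl hs
    · have h1 : ∀ i, ∃ m, i ∈ s → ∀ j ∈ s, j ≠ i → l j m ∈ C j := by
        intro i
        by_cases hi : i ∈ s
        · obtain ⟨m, hm⟩ := ih (s.erase i) (erase_ssubset hi)
            fun t ht => h t (ht.trans (erase_subset _ _))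
          exact ⟨m, fun _ j hj hji => hm j (mem_erase.2 ⟨hji, hj⟩)⟩
        · exact ⟨0, fun h' => absurd h' hi⟩
      choose x hx using h1
      exact doignon_aux s l C hC (not_le.1 hs) x fun i hi => hx i hi

/-- The form used for complements: closed half spaces `c i ≤ m · ρ i` and one open half space
`m · p < a`. -/
theorem helly_rays {d : ℕ} {ι : Type*} (s : Finset ι) (ρ : ι → Fin d → ℝ) (c : ι → ℝ)
    (p : Fin d → ℝ) (a : ℝ)
    (h : ∀ t ⊆ s, t.card ≤ 2 ^ d → ∃ m : Fin d → ℤ,
      (∀ i ∈ t, c i ≤ ∑ k, (m k : ℝ) * ρ i k) ∧ ∑ k, (m k : ℝ) * p k < a) :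
    ∃ m : Fin d → ℤ, (∀ i ∈ s, c i ≤ ∑ k, (m k : ℝ) * ρ i k) ∧ ∑ k, (m k : ℝ) * p k < a := by
  classical
  let lin : (Fin d → ℝ) → (Fin d → ℤ) →+ ℝ := fun r =>
    { toFun := fun m => ∑ k, (m k : ℝ) * r k
      map_zero' := by simp
      map_add' := fun m m' => by simp [add_mul, sum_add_distrib] }
  obtain ⟨m, hm⟩ := doignon (insertNone s)
    (fun o => o.elim (lin (-p)) fun i => lin (ρ i))
    (fun o => o.elim (Set.Ioi (-a)) fun i => Set.Ici (c i))
    (fun o => by
      cases o with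
      | none => exact isUpperSet_Ioi _
      | some i => exact isUpperSet_Ici _)
    (fun t ht hc => by
      obtain ⟨m, h1, h2⟩ := h (eraseNone t) (fun i hi => by
        have := ht (mem_eraseNone.1 hi); simpa using this) ((card_eraseNone_le t).trans hc)
      refine ⟨m, fun o ho => ?_⟩
      cases o with
      | none =>
        show -a < ∑ k, (m k : ℝ) * (-p) k
        simp only [Pi.neg_apply, mul_neg, sum_neg_distrib]; linarith
      | some i => exact h1 i (mem_eraseNone.2 ho))
  refine ⟨m, fun i hi => hm (some i) (by simpa using hi), ?_⟩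
  have h2 : -a < ∑ k, (m k : ℝ) * (-p) k := hm none (by simp)
  simp only [Pi.neg_apply, mul_neg, sum_neg_distrib] at h2
  linarith

end Vale.Agent.P283R.He
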