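import Vale.Agent.P283R.He.Doi

/-!
# P283R: integer Helly for constraints with convex piecewise linear terms
-/

namespace Vale.Agent.P283R.He.C62

open Finset

/-- Doignon's theorem on a lattice with any finite index type -/
theorem doi {A ι : Type} [Fintype A] (s : Finset ι) (l : ι → (A → ℤ) →+ ℝ) (C : ι → Set ℝ)
    (hC : ∀ i, IsUpperSet (C i))
    (h : ∀ t ⊆ s, t.card ≤ 2 ^ Fintype.card A → ∃ m, ∀ i ∈ t, l i m ∈ C i) :
    ∃ m, ∀ i ∈ s, l i m ∈ C i := by
  let e := Fintype.equivFin A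
  let φ : (Fin (Fintype.card A) → ℤ) →+ (A → ℤ) :=
    { toFun := fun m a => m (e a)
      map_zero' := rfl
      map_add' := fun _ _ => rfl }
  obtain ⟨m, hm⟩ := doignon s (fun i => (l i).comp φ) C hC fun t ht hc => by
    obtain ⟨m, hm⟩ := h t ht hc
    refine ⟨fun k => m (e.symm k), fun i hi => ?_⟩
    have : φ (fun k => m (e.symm k)) = m := funext fun a => congrArg m (e.symm_apply_apply a)
    rw [AddMonoidHom.comp_apply, this]
    exact hm i hi
  exact ⟨φ m, hm⟩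

/-- the numbers `n p` are eliminated: they are bounded below by maxima of affine functions -/
theorem cvx {A ι π κ : Type} [Fintype A] (s : Finset ι) (I : Finset π) (F : π → Finset κ)
    (f : κ → (A → ℤ) →+ ℝ) (b : κ → ℝ) (L : ι → (A → ℤ) →+ ℝ) (W : ι → π → ℝ)
    (W0 : ∀ i ∈ s, ∀ p ∈ I, 0 ≤ W i p) (C : ι → Set ℝ) (hC : ∀ i, IsUpperSet (C i))
    (h : ∀ t ⊆ s, t.card ≤ 2 ^ Fintype.card A → ∃ (x : A → ℤ) (n : π → ℝ),
      (∀ p ∈ I, ∀ P ∈ F p, b P ≤ n p + f P x) ∧ ∀ i ∈ t, L i x - ∑ p ∈ I, W i p * n p ∈ C i) :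
    ∃ x : A → ℤ, ∀ n : π → ℝ, (∀ p ∈ I, ∃ P ∈ F p, n p + f P x ≤ b P) →
      ∀ i ∈ s, L i x - ∑ p ∈ I, W i p * n p ∈ C i := by
  classical
  obtain ⟨x, hx⟩ := doi (s ×ˢ Fintype.piFinset fun p : I => F p.1)
    (fun j => L j.1 + ∑ p : I, (AddMonoidHom.mulLeft (W j.1 p.1)).comp (f (j.2 p)))
    (fun j => {z | z - ∑ p : I, W j.1 p.1 * b (j.2 p) ∈ C j.1})
    (fun j z z' e hz => hC _ (sub_le_sub_right e _) hz) fun t ht hc => by
      obtain ⟨x, n, h1, h2⟩ := h (t.image Prod.fst) (fun i hi => by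
        obtain ⟨j, hj, rfl⟩ := mem_image.1 hi
        exact (mem_product.1 (ht hj)).1) (card_image_le.trans hc)
      refine ⟨x, fun j hj => hC _ ?_ (h2 j.1 (mem_image_of_mem _ hj))⟩
      obtain ⟨a1, a2⟩ := mem_product.1 (ht hj)
      simp only [AddMonoidHom.add_apply, AddMonoidHom.finsetSum_apply, AddMonoidHom.comp_apply,
        AddMonoidHom.coe_mulLeft]
      rw [← sum_coe_sort I, add_sub_assoc, sub_eq_add_neg, ← sum_neg_distrib, ← sum_sub_distrib]
      refine add_le_add le_rfl (sum_le_sum fun p _ => ?_)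
      have := mul_le_mul_of_nonneg_left (h1 p p.2 _ (Fintype.mem_piFinset.1 a2 p)) (W0 _ a1 p p.2)
      linarith
  refine ⟨x, fun n hn i hi => ?_⟩
  choose τ t1 t2 using fun p : I => hn p p.2
  refine hC _ ?_ (hx (i, τ) (mem_product.2 ⟨hi, Fintype.mem_piFinset.2 t1⟩))
  simp only [AddMonoidHom.add_apply, AddMonoidHom.finsetSum_apply, AddMonoidHom.comp_apply,
    AddMonoidHom.coe_mulLeft]
  rw [← sum_coe_sort I, add_sub_assoc, sub_eq_add_neg _ (∑ p : I, W i p.1 * n p.1),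
    ← sum_neg_distrib, ← sum_sub_distrib]
  refine add_le_add le_rfl (sum_le_sum fun p _ => ?_)
  have := mul_le_mul_of_nonneg_left (t2 p) (W0 _ hi p p.2)
  linarith

end Vale.Agent.P283R.He.C62
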