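import Vale.Agent.P283R.He.Cvx62

/-!
# P283R: integer Helly over the rays, the rounding is repaired by doubling
-/

namespace Vale.Agent.P283R.He.C62

open Finset

/-- the additive map given by real coefficients -/
def lin {A : Type} [Fintype A] (r : A → ℝ) : (A → ℤ) →+ ℝ where
  toFun := fun m => ∑ k, r k * m k
  map_zero' := by simp
  map_add' := fun m m' => by simp [mul_add, sum_add_distrib]

theorem frac {π : Type} (H : Finset π) (W : π → ℤ) (δ : π → ℝ) (W0 : ∀ p ∈ H, 0 ≤ W p)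
    (W1 : ∑ p ∈ H, W p ≤ 1) (d1 : ∀ p ∈ H, δ p < 1) : ∑ p ∈ H, W p * δ p < 1 := by
  by_cases h : ∀ p ∈ H, W p = 0
  · rw [sum_eq_zero fun p hp => by rw [h p hp, Int.cast_zero, zero_mul]]
    exact one_pos
  · push Not at h
    obtain ⟨p, hp, h⟩ := h
    have : ∑ p ∈ H, W p * δ p < ∑ p ∈ H, (W p : ℝ) := sum_lt_sum
      (fun p hp => mul_le_of_le_one_right (by exact_mod_cast W0 p hp) (d1 p hp).le)
      ⟨p, hp, mul_lt_of_lt_one_right (by exact_mod_cast (W0 p hp).lt_of_ne' h) (d1 p hp)⟩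
    exact this.trans_le (by exact_mod_cast W1)

/-- pages `I`, primes `F p` over a page, rays `R`, one open condition -/
theorem dbl {A ι π κ : Type} [Fintype A] (R : Finset ι) (I J H : Finset π) (F : π → Finset κ)
    (μ k : κ → ℤ) (Y : κ → A → ℤ) (Z : ι → A → ℤ) (W : ι → π → ℤ) (kr : ι → ℤ) (z : A → ℤ)
    (c : π → ℤ) (α : ℤ) (JI : J ⊆ I) (HI : ∀ p ∈ H, p ∈ I ∧ p ∉ J) (Fn : ∀ p ∈ I, (F p).Nonempty)
    (μ0 : ∀ p ∈ I, ∀ P ∈ F p, 0 < μ P) (W0 : ∀ r ∈ R, ∀ p ∈ I, p ∉ J → 0 ≤ W r p)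
    (c0 : ∀ p ∈ I, p ∉ J → 0 ≤ c p) (μ2 : ∀ p ∈ I, p ∉ J → p ∉ H → ∀ P ∈ F p, μ P ≤ 2)
    (cH : ∀ p ∈ H, c p = 0) (wH : ∀ r ∈ R, ∑ p ∈ H, W r p ≤ 1)
    (h : ∀ t ⊆ R, t.card ≤ 2 ^ (Fintype.card A + J.card) → ∃ (x : A → ℤ) (n : π → ℤ),
      (∀ p ∈ I, ∀ P ∈ F p, k P ≤ μ P * n p + Y P ⬝ᵥ x) ∧
      (∀ r ∈ t, kr r ≤ Z r ⬝ᵥ x - ∑ p ∈ I, W r p * n p) ∧ z ⬝ᵥ x + ∑ p ∈ I, c p * n p < α) :
    ∃ (x : A → ℤ) (n : π → ℤ), (∀ p ∈ I, ∀ P ∈ F p, 2 * k P ≤ μ P * n p + Y P ⬝ᵥ x) ∧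
      (∀ r ∈ R, 2 * kr r ≤ Z r ⬝ᵥ x - ∑ p ∈ I, W r p * n p) ∧
      z ⬝ᵥ x + ∑ p ∈ I, c p * n p < 2 * α := by
  classical
  have sp : ∀ g : π → ℝ, ∑ p ∈ I, g p = ∑ p : J, g p.1 + ∑ p ∈ I \ J, g p := fun g => by
    rw [sum_coe_sort J g, add_comm, sum_sdiff JI]
  obtain ⟨x, hx⟩ := cvx (A := A ⊕ J)
    (R.disjSum (((univ : Finset J) ×ˢ J.biUnion F).filter (fun j => j.2 ∈ F j.1.1) |>.disjSum
      (univ : Finset Unit))) (I \ J) F
    (fun P => lin (Sum.elim (fun a => (Y P a : ℝ) / μ P) 0)) (fun P => k P / μ P)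
    (Sum.elim (fun r => lin (Sum.elim (fun a => (Z r a : ℝ)) fun p => -W r p.1))
      (Sum.elim (fun j => lin (Sum.elim (fun a => (Y j.2 a : ℝ)) (Pi.single j.1 (μ j.2))))
        fun _ => lin (Sum.elim (fun a => (-z a : ℝ)) fun p => -c p.1)))
    (Sum.elim (fun r p => W r p) (Sum.elim 0 fun _ p => c p))
    (by
      rintro (r | j | j) hi p hp
      · exact Int.cast_nonneg_iff.2 (W0 r (by simpa using hi) p (mem_sdiff.1 hp).1 (mem_sdiff.1 hp).2)
      · exact le_rfl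
      · exact Int.cast_nonneg_iff.2 (c0 p (mem_sdiff.1 hp).1 (mem_sdiff.1 hp).2))
    (Sum.elim (fun r => Set.Ici (kr r)) (Sum.elim (fun j => Set.Ici (k j.2)) fun _ => Set.Ioi (-α)))
    (by
      rintro (r | j | j)
      exacts [isUpperSet_Ici _, isUpperSet_Ici _, isUpperSet_Ioi _])
    fun t ht hc => by
      obtain ⟨x, n, h1, h2, h3⟩ := h t.toLeft (fun i hi => by simpa using ht (mem_toLeft.1 hi))
        (card_toLeft_le.trans (by rwa [Fintype.card_sum, Fintype.card_coe] at hc))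
      refine ⟨Sum.elim x fun p => n p.1, fun p => n p, fun p hp P hP => ?_, ?_⟩
      · have m0 : (0 : ℝ) < μ P := by exact_mod_cast μ0 p (mem_sdiff.1 hp).1 P hP
        have : (k P : ℝ) ≤ μ P * n p + ∑ a, (Y P a : ℝ) * x a := by
          exact_mod_cast h1 p (mem_sdiff.1 hp).1 P hP
        simp only [lin, AddMonoidHom.coe_mk, ZeroHom.coe_mk, Fintype.sum_sum_type, Sum.elim_inl,
          Sum.elim_inr, Pi.zero_apply, zero_mul, sum_const_zero, add_zero, div_mul_eq_mul_div,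
          ← sum_div]
        rw [div_le_iff₀ m0, add_mul, div_mul_cancel₀ _ m0.ne']
        linarith
      · rintro (r | j | j) hi
        · have : (kr r : ℝ) ≤ ∑ a, (Z r a : ℝ) * x a - ∑ p ∈ I, (W r p : ℝ) * n p := by
            exact_mod_cast h2 r (mem_toLeft.2 hi)
          rw [sp] at this
          simp only [lin, AddMonoidHom.coe_mk, ZeroHom.coe_mk, Fintype.sum_sum_type, Sum.elim_inl,
            Sum.elim_inr, Set.mem_Ici, neg_mul, sum_neg_distrib]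
          linarith
        · have hj : j.2 ∈ F j.1.1 := by
            have := ht hi
            simp only [inr_mem_disjSum, inl_mem_disjSum, mem_filter] at this
            exact this.2
          have : (k j.2 : ℝ) ≤ μ j.2 * n j.1 + ∑ a, (Y j.2 a : ℝ) * x a := by
            exact_mod_cast h1 _ (JI j.1.2) _ hj
          simp only [lin, AddMonoidHom.coe_mk, ZeroHom.coe_mk, Fintype.sum_sum_type, Sum.elim_inl,
            Sum.elim_inr, Set.mem_Ici, Pi.zero_apply, zero_mul, sum_const_zero, sub_zero,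
            Pi.single_apply, ite_mul, sum_ite_eq', mem_univ, if_true]
          linarith
        · have : ∑ a, (z a : ℝ) * x a + ∑ p ∈ I, (c p : ℝ) * n p < α := by exact_mod_cast h3
          rw [sp] at this
          simp only [lin, AddMonoidHom.coe_mk, ZeroHom.coe_mk, Fintype.sum_sum_type, Sum.elim_inl,
            Sum.elim_inr, Set.mem_Ioi, neg_mul, sum_neg_distrib]
          linarith
  let g : κ → ℝ := fun P => (k P - ∑ a, Y P a * x (Sum.inl a) : ℤ) / μ P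
  have ex : ∀ p, ∃ ψ : ℝ, p ∈ I → (∃ P ∈ F p, ψ = g P) ∧ ∀ P ∈ F p, g P ≤ ψ := fun p => by
    by_cases hp : p ∈ I
    · obtain ⟨P, h1, h2⟩ := exists_max_image (F p) g (Fn p hp)
      exact ⟨g P, fun _ => ⟨⟨P, h1, rfl⟩, h2⟩⟩
    · exact ⟨0, fun e => absurd e hp⟩
  choose ψ hψ using ex
  have key := hx ψ fun p hp => by
    obtain ⟨P, h1, h2⟩ := (hψ p (mem_sdiff.1 hp).1).1
    refine ⟨P, h1, le_of_eq ?_⟩
    simp only [h2, g, lin, AddMonoidHom.coe_mk, ZeroHom.coe_mk, Fintype.sum_sum_type, Sum.elim_inl,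
      Sum.elim_inr, Pi.zero_apply, zero_mul, sum_const_zero, add_zero, div_mul_eq_mul_div,
      ← sum_div]
    push_cast
    ring
  let n : π → ℤ := fun p => if hp : p ∈ J then 2 * x (Sum.inr ⟨p, hp⟩) else ⌈2 * ψ p⌉
  have nJ : ∀ p : J, n p.1 = 2 * x (Sum.inr p) := fun p => dif_pos p.2
  have nI : ∀ p ∉ J, n p = ⌈2 * ψ p⌉ := fun p hp => dif_neg hp
  have lt : ∀ p ∈ I \ J, p ∉ H → (n p : ℝ) = 2 * ψ p := fun p hp hH => by
    obtain ⟨hp, hJ⟩ := mem_sdiff.1 hp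
    obtain ⟨P, h1, h2⟩ := (hψ p hp).1
    have a := μ0 p hp P h1
    have b := μ2 p hp hJ hH P h1
    obtain ⟨j, hj⟩ : ∃ j : ℤ, 2 * ψ p = j := by
      obtain e | e : μ P = 1 ∨ μ P = 2 := by omega
      · exact ⟨2 * (k P - ∑ a, Y P a * x (Sum.inl a)), by simp only [h2, g, e]; push_cast; ring⟩
      · exact ⟨k P - ∑ a, Y P a * x (Sum.inl a), by simp only [h2, g, e]; push_cast; ring⟩
    rw [nI p hJ, hj, Int.ceil_intCast]
  have sH : ∀ w : π → ℤ, ∑ p ∈ I \ J, (w p : ℝ) * n p =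
      2 * ∑ p ∈ I \ J, w p * ψ p + ∑ p ∈ H, w p * (n p - 2 * ψ p) := fun w => by
    rw [sum_subset (s₁ := H) (s₂ := I \ J) (fun p hp => mem_sdiff.2 (HI p hp))
      fun p hp hH => by rw [lt p hp hH, sub_self, mul_zero], mul_sum, ← sum_add_distrib]
    exact sum_congr rfl fun p _ => by ring
  have dt : ∀ V : A → ℤ, ((V ⬝ᵥ fun a => 2 * x (Sum.inl a) : ℤ) : ℝ) =
      2 * ∑ a, (V a : ℝ) * x (Sum.inl a) := fun V => by
    rw [dotProduct, mul_sum]
    push_cast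
    exact sum_congr rfl fun a _ => by ring
  have sJ : ∀ w : π → ℤ, ∑ p : J, (w p.1 : ℝ) * n p.1 = 2 * ∑ p : J, (w p.1 : ℝ) * x (Sum.inr p) :=
    fun w => by
      rw [mul_sum]
      exact sum_congr rfl fun p _ => by rw [nJ]; push_cast; ring
  refine ⟨fun a => 2 * x (Sum.inl a), n, fun p hp P hP => ?_, fun r hr => ?_, ?_⟩
  · have m0 : (0 : ℝ) < μ P := by exact_mod_cast μ0 p hp P hP
    refine (Int.cast_le (R := ℝ)).1 ?_
    rw [Int.cast_add, dt]
    push_cast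
    by_cases hJ : p ∈ J
    · have := key (Sum.inr (Sum.inl (⟨p, hJ⟩, P))) (by
        simp only [inr_mem_disjSum, inl_mem_disjSum, mem_filter, mem_product, mem_univ, true_and]
        exact ⟨mem_biUnion.2 ⟨p, hJ, hP⟩, hP⟩)
      simp only [lin, AddMonoidHom.coe_mk, ZeroHom.coe_mk, Fintype.sum_sum_type, Sum.elim_inl,
        Sum.elim_inr, Set.mem_Ici, Pi.zero_apply, zero_mul, sum_const_zero, sub_zero,
        Pi.single_apply, ite_mul, sum_ite_eq', mem_univ, if_true] at this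
      rw [nJ ⟨p, hJ⟩]
      push_cast
      linarith
    · have a := (hψ p hp).2 P hP
      have b := mul_le_mul_of_nonneg_left (Int.le_ceil (2 * ψ p)) m0.le
      simp only [g] at a
      rw [div_le_iff₀ m0] at a
      push_cast at a
      rw [nI p hJ]
      linarith
  · have := key (Sum.inl r) (by simpa using hr)
    simp only [lin, AddMonoidHom.coe_mk, ZeroHom.coe_mk, Fintype.sum_sum_type, Sum.elim_inl,
      Sum.elim_inr, Set.mem_Ici, neg_mul, sum_neg_distrib] at this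
    have fr := frac H (W r) (fun p => n p - 2 * ψ p) (fun p hp => W0 r hr p (HI p hp).1 (HI p hp).2)
      (wH r hr) fun p hp => by
        rw [nI p (HI p hp).2]
        linarith [Int.ceil_lt_add_one (2 * ψ p)]
    refine Int.lt_add_one_iff.1 ((Int.cast_lt (R := ℝ)).1 ?_)
    rw [Int.cast_add, Int.cast_sub, dt]
    push_cast
    rw [sp, sH, sJ]
    linarith
  · have := key (Sum.inr (Sum.inr ())) (by simp)
    simp only [lin, AddMonoidHom.coe_mk, ZeroHom.coe_mk, Fintype.sum_sum_type, Sum.elim_inl,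
      Sum.elim_inr, Set.mem_Ioi, neg_mul, sum_neg_distrib] at this
    refine (Int.cast_lt (R := ℝ)).1 ?_
    rw [Int.cast_add, dt]
    push_cast
    rw [sp, sH, sJ, sum_eq_zero (s := H) fun p hp => by rw [cH p hp, Int.cast_zero, zero_mul]]
    linarith

end Vale.Agent.P283R.He.C62
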